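import Mathlib

set_option autoImplicit false

/-! A checker that all square minors of a matrix are nonzero modulo a prime, and its meaning
over an arbitrary field of that characteristic. -/

namespace Crest.Agent.R345

/-- One Schur complement step on a row. -/
def red (p a : ℕ) (cs : List ℕ) (w : List ℕ) : List ℕ :=
  List.zipWith (fun ci wi => (a * wi + (p - w.headD 0) * ci) % p) cs w.tail

/-- Run over the possible pivot columns of a row. -/
def cols (p : ℕ) (k : List (List ℕ) → Bool) : List ℕ → List (List ℕ) → Bool
  | [], _ => true
  | a :: cs, T => (Nat.blt 0 a) && k (T.map (red p a cs)) && cols p k cs (T.map List.tail)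

/-- All square minors are nonzero. -/
def chk (p : ℕ) : ℕ → List (List ℕ) → Bool
  | _, [] => true
  | 0, _ :: _ => false
  | f + 1, e :: T => chk p f T && cols p (chk p f) e T

variable {k : Type*} [Field k]

/-- Pairing of a list of naturals with a vector. -/
def dot : List ℕ → List k → k
  | a :: as, x :: xs => (a : k) * x + dot as xs
  | _, _ => 0

open Classical in
/-- Number of nonzero coordinates. -/
noncomputable def wt (u : List k) : ℕ := u.countP fun x => x ≠ 0

open Classical in
/-- Number of rows with nonzero pairing. -/
noncomputable def nz (T : List (List ℕ)) (u : List k) : ℕ := T.countP fun e => dot e u ≠ 0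

/-- Rows are reduced and have the right length. -/
def Ok (p m : ℕ) (T : List (List ℕ)) : Prop := ∀ e ∈ T, e.length = m ∧ ∀ a ∈ e, a < p

theorem dot_zero (e : List ℕ) (u : List k) (hu : ∀ x ∈ u, x = 0) : dot e u = 0 := by
  induction e generalizing u with
  | nil => simp [dot]
  | cons a as ih =>
    cases u with
    | nil => simp [dot]
    | cons x xs =>
      simp only [dot]
      rw [hu x (by simp), ih xs fun y hy => hu y (by simp [hy])]
      simp

theorem dot_zip {p : ℕ} (hp : (p : k) = 0) (a b : ℕ) (cs ws : List ℕ) (xs : List k)
    (h : cs.length = ws.length) :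
    dot (List.zipWith (fun ci wi => (a * wi + b * ci) % p) cs ws) xs =
      a * dot ws xs + b * dot cs xs := by
  induction cs generalizing ws xs with
  | nil =>
    cases ws with
    | nil => simp [dot]
    | cons _ _ => simp at h
  | cons c cs ih =>
    cases ws with
    | nil => simp at h
    | cons w ws =>
      cases xs with
      | nil => simp [dot]
      | cons x xs =>
        simp only [List.zipWith_cons_cons, dot]
        rw [ih ws xs (by simpa using h)]
        have : (((a * w + b * c) % p : ℕ) : k) = a * w + b * c := by
          have h1 := Nat.mod_add_div (a * w + b * c) p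
          have h2 : (((a * w + b * c) % p + p * ((a * w + b * c) / p) : ℕ) : k) =
              ((a * w + b * c : ℕ) : k) := by rw [h1]
          push_cast at h2
          rw [hp] at h2
          simpa using h2
        rw [this]
        ring

theorem cast_ne_zero {p : ℕ} (hpp : p.Prime) (hp : (p : k) = 0) {a : ℕ} (h0 : 0 < a) (ha : a < p) :
    (a : k) ≠ 0 := by
  have : CharP k p := (CharP.charP_iff_prime_eq_zero hpp).2 hp
  intro h
  rw [CharP.cast_eq_zero_iff k p] at h
  exact absurd (Nat.le_of_dvd h0 h) (by omega)

theorem cols_sound {p : ℕ} (hpp : p.Prime) (hp : (p : k) = 0) (c : List (List ℕ) → Bool) (n : ℕ)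
    (hc : ∀ (T : List (List ℕ)) (u : List k), T.length = n → Ok p u.length T → c T = true →
      (∃ x ∈ u, x ≠ 0) → n + 1 ≤ wt u + nz T u) :
    ∀ (e : List ℕ) (T : List (List ℕ)) (u : List k), T.length = n → Ok p u.length (e :: T) →
      cols p c e T = true → (∃ x ∈ u, x ≠ 0) → dot e u = 0 → n + 2 ≤ wt u + nz T u := by
  intro e
  induction e with
  | nil =>
    intro T u _ hok _ hu _
    have := (hok [] (by simp)).1
    obtain ⟨x, hx, _⟩ := hu
    have h2 := List.length_pos_of_mem hx
    simp at this
    omega
  | cons a cs ih =>
    intro T u hT hok hcol hu hd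
    cases u with
    | nil => simp at hu
    | cons x xs =>
      simp only [cols, Bool.and_eq_true, Nat.blt_eq] at hcol
      obtain ⟨⟨ha, hk⟩, hrest⟩ := hcol
      have he := hok (a :: cs) (by simp)
      have hcs : cs.length = xs.length := by simpa using he.1
      have hap : a < p := he.2 a (by simp)
      have hshape : ∀ w ∈ T, ∃ w0 ws, w = w0 :: ws ∧ ws.length = xs.length ∧ w0 < p ∧
          ∀ b ∈ ws, b < p := by
        intro w hw
        have := hok w (by simp [hw])
        cases w with
        | nil => simp at this
        | cons w0 ws =>
          exact ⟨w0, ws, rfl, by simpa using this.1, this.2 w0 (by simp),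
            fun b hb => this.2 b (by simp [hb])⟩
      simp only [dot] at hd
      by_cases hx : x = 0
      · subst hx
        have h1 := ih (T.map List.tail) xs (by simpa using hT) ?_ hrest (by simpa using hu)
          (by simpa using hd)
        · have e1 : wt ((0 : k) :: xs) = wt xs := by simp [wt]
          have e2 : nz T ((0 : k) :: xs) = nz (T.map List.tail) xs := by
            simp only [nz, List.countP_map]
            refine List.countP_congr fun w hw => ?_
            obtain ⟨w0, ws, rfl, _⟩ := hshape w hw
            simp [dot]
          omega
        · intro w hw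
          rcases List.mem_cons.1 hw with rfl | hw
          · exact ⟨hcs, fun b hb => he.2 b (by simp [hb])⟩
          · obtain ⟨w', hw', rfl⟩ := List.mem_map.1 hw
            obtain ⟨w0, ws, rfl, h1, _, h3⟩ := hshape w' hw'
            exact ⟨h1, h3⟩
      · have hane : (a : k) ≠ 0 := cast_ne_zero hpp hp ha hap
        have hxs : ∃ y ∈ xs, y ≠ 0 := by
          by_contra h
          push Not at h
          rw [dot_zero cs xs h, add_zero] at hd
          exact mul_ne_zero hane hx hd
        have h1 := hc (T.map (red p a cs)) xs (by simpa using hT) ?_ hk hxs
        · have e1 : wt (x :: xs) = wt xs + 1 := by simp [wt, hx]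
          have e2 : nz T (x :: xs) = nz (T.map (red p a cs)) xs := by
            simp only [nz, List.countP_map]
            refine List.countP_congr fun w hw => ?_
            obtain ⟨w0, ws, rfl, h1, h2, _⟩ := hshape w hw
            have : dot (red p a cs (w0 :: ws)) xs = a * dot (w0 :: ws) (x :: xs) := by
              simp only [red, List.headD_cons, List.tail_cons, dot]
              rw [dot_zip hp a (p - w0) cs ws xs (by omega), Nat.cast_sub h2.le, hp]
              linear_combination (-(w0 : k)) * hd
            simp [this, hane]
          omega
        · intro w hw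
          obtain ⟨w', hw', rfl⟩ := List.mem_map.1 hw
          obtain ⟨w0, ws, rfl, h1, _, _⟩ := hshape w' hw'
          refine ⟨by simp [red, hcs, h1], fun b hb => ?_⟩
          simp only [red] at hb
          obtain ⟨i, hi, rfl⟩ := List.getElem_of_mem hb
          rw [List.getElem_zipWith]
          exact Nat.mod_lt _ hpp.pos

theorem chk_sound {p : ℕ} (hpp : p.Prime) (hp : (p : k) = 0) (f : ℕ) :
    ∀ (T : List (List ℕ)) (u : List k), Ok p u.length T → chk p f T = true →
      (∃ x ∈ u, x ≠ 0) → T.length + 1 ≤ wt u + nz T u := by
  have base : ∀ u : List k, (∃ x ∈ u, x ≠ 0) → 0 + 1 ≤ wt u + nz [] u := by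
    intro u hu
    have : 0 < wt u := by
      obtain ⟨x, hx, hx0⟩ := hu
      exact List.countP_pos_iff.2 ⟨x, hx, by simpa using hx0⟩
    omega
  induction f with
  | zero =>
    intro T u _ h hu
    cases T with
    | nil => exact base u hu
    | cons _ _ => simp [chk] at h
  | succ f ih =>
    intro T u hok h hu
    cases T with
    | nil => exact base u hu
    | cons e T =>
      simp only [chk, Bool.and_eq_true] at h
      have hokT : Ok p u.length T := fun w hw => hok w (by simp [hw])
      by_cases hd : dot e u = 0
      · have h1 := cols_sound hpp hp (chk p f) T.length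
          (fun T' u' hl ho hc hu' => hl ▸ ih T' u' ho hc hu') e T u rfl hok h.2 hu hd
        have e2 : nz (e :: T) u = nz T u := by simp [nz, hd]
        simp only [List.length_cons]
        omega
      · have h1 := ih T u hokT h.1 hu
        have e2 : nz (e :: T) u = nz T u + 1 := by simp [nz, hd]
        simp only [List.length_cons]
        omega

end Crest.Agent.R345
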