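import Mathlib

set_option autoImplicit false

/-! Reduction of a pair of nonzero complex vectors to characteristic `p`. -/

namespace Crest.Agent.R345

theorem exists_val (p : ℕ) (hp : 2 ≤ p) :
    ∃ O : ValuationSubring ℂ, (p : ℂ) ∈ O.nonunits := by
  let A : Subring ℂ := (Int.castRingHom ℂ).range
  let q : A := ⟨(p : ℂ), ⟨(p : ℤ), by simp⟩⟩
  have hI : Ideal.span {q} ≠ ⊤ := by
    intro h
    rw [Ideal.span_singleton_eq_top] at h
    obtain ⟨b, hb⟩ := h.exists_right_inv
    obtain ⟨b, ⟨c, rfl⟩⟩ := b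
    have h1 : (p : ℂ) * (c : ℂ) = 1 := by simpa [q] using congrArg Subtype.val hb
    have h2 : (p : ℤ) * c = 1 := by exact_mod_cast h1
    have h3 := Int.eq_one_of_mul_eq_one_right (by positivity) h2
    omega
  obtain ⟨O, _, hO⟩ := Ideal.image_subset_nonunits_valuationSubring _ hI
  exact ⟨O, hO ⟨q, Ideal.subset_span rfl, rfl⟩⟩

theorem exists_scale {n : ℕ} (O : ValuationSubring ℂ) (u : Fin n → ℂ) (hu : u ≠ 0) :
    ∃ (c : ℂ) (w : Fin n → O) (i : Fin n), c ≠ 0 ∧ (∀ j, (w j : ℂ) = c * u j) ∧ w i = 1 := by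
  obtain ⟨j0, hj0⟩ := Function.ne_iff.1 hu
  obtain ⟨i, _, hi⟩ := Finset.exists_max_image Finset.univ (fun j => O.valuation (u j))
    ⟨j0, Finset.mem_univ _⟩
  have hui : u i ≠ 0 := by
    intro h
    have := hi j0 (Finset.mem_univ _)
    rw [h, map_zero, le_zero_iff, map_eq_zero] at this
    exact hj0 this
  have hv : O.valuation (u i) ≠ 0 := by simpa using hui
  refine ⟨(u i)⁻¹, fun j => ⟨(u i)⁻¹ * u j, ?_⟩, i, inv_ne_zero hui, fun j => rfl, ?_⟩
  · rw [← O.valuation_le_one_iff, map_mul, map_inv₀, inv_mul_le_one₀ (zero_lt_iff.2 hv)]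
    exact hi j (Finset.mem_univ _)
  · ext
    simp [hui]

theorem reduce {m n : ℕ} (p : ℕ) (hp : 2 ≤ p) (u : Fin m → ℂ) (v : Fin n → ℂ) (hu : u ≠ 0)
    (hv : v ≠ 0) :
    ∃ (k : Type) (_ : Field k) (a : Fin m → k) (b : Fin n → k), (p : k) = 0 ∧ a ≠ 0 ∧ b ≠ 0 ∧
      ∀ F : Fin m → Fin n → ℤ, ∑ s, ∑ t, (F s t : ℂ) * (u s * v t) = 0 →
        ∑ s, ∑ t, (F s t : k) * (a s * b t) = 0 := by
  obtain ⟨O, hO⟩ := exists_val p hp
  obtain ⟨c, w, i, hc, hw, hi⟩ := exists_scale O u hu
  obtain ⟨d, z, j, hd, hz, hj⟩ := exists_scale O v hv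
  let r := IsLocalRing.residue O
  refine ⟨IsLocalRing.ResidueField O, inferInstance, fun s => r (w s), fun t => r (z t),
    ?_, ?_, ?_, fun F hF => ?_⟩
  · rw [← map_natCast r, IsLocalRing.residue_eq_zero_iff]
    rw [← O.coe_mem_nonunits_iff]
    simpa using hO
  · intro h
    have := congrFun h i
    simp [hi] at this
  · intro h
    have := congrFun h j
    simp [hj] at this
  · have h1 : ∑ s, ∑ t, (F s t : O) * (w s * z t) = 0 := by
      have hinj : Function.Injective O.subtype := Subtype.val_injective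
      apply hinj
      simp only [map_sum, map_mul, map_intCast, map_zero, ValuationSubring.subtype_apply, hw, hz]
      have : ∑ s, ∑ t, (F s t : ℂ) * (c * u s * (d * v t)) =
          c * d * ∑ s, ∑ t, (F s t : ℂ) * (u s * v t) := by
        simp only [Finset.mul_sum]
        exact Finset.sum_congr rfl fun s _ => Finset.sum_congr rfl fun t _ => by ring
      rw [this, hF, mul_zero]
    have h2 := congrArg r h1
    simpa [map_sum] using h2

end Crest.Agent.R345
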