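import Crest.Agent.R345.Data
import Crest.Agent.R345.Val

set_option autoImplicit false

/-! No product vector is orthogonal to all kernel vectors; bridge lemmas for the finite checks. -/

namespace Crest.Agent.R345

theorem sum_zipWith {α β : Type*} (f : α → β → ℤ) (d₁ : α) (d₂ : β) (h₁ : ∀ b, f d₁ b = 0)
    (h₂ : ∀ a, f a d₂ = 0) (n : ℕ) : ∀ (l₁ : List α) (l₂ : List β), l₁.length ≤ n →
      (List.zipWith f l₁ l₂).sum = ∑ i : Fin n, f (l₁.getD i d₁) (l₂.getD i d₂) := by
  induction n with
  | zero =>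
    intro l₁ l₂ h
    rw [List.length_eq_zero_iff.1 (Nat.le_zero.1 h)]
    simp
  | succ n ih =>
    intro l₁ l₂ h
    cases l₁ with
    | nil => simp [h₁]
    | cons a l₁ =>
      cases l₂ with
      | nil => simp [h₂]
      | cons b l₂ =>
        rw [Fin.sum_univ_succ, List.zipWith_cons_cons, List.sum_cons, ih l₁ l₂ (by simpa using h)]
        simp

theorem dotZ_eq (n : ℕ) (a b : List ℤ) (h : a.length ≤ n) :
    dotZ a b = ∑ i : Fin n, a.getD i 0 * b.getD i 0 :=
  sum_zipWith (fun x y => x * y) 0 0 (fun _ => zero_mul _) (fun _ => mul_zero _) n a b h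

theorem getD_mem' {α : Type*} (l : List α) (d : α) (i : ℕ) (h : i < l.length) : l.getD i d ∈ l := by
  rw [List.getD_eq_getElem _ _ h]
  exact List.getElem_mem h

theorem kerF (j : Fin 20) (i i' : Fin 15) :
    ∑ e : Fin 10, ∑ t : Fin 10, (∑ s : Fin 10, g3 Kd i e s * g3 Fd j t s) * g3 K2d i' e t = 0 := by
  have h := chkA_true
  simp only [chkA, List.all_eq_true, beq_iff_eq] at h
  have hF := getD_mem' Fd [] j j.2
  have hK := getD_mem' Kd [] i i.2
  have h1 := h _ hF _ hK _ (getD_mem' K2d [] i' i'.2)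
  set F := Fd.getD j []
  set K := Kd.getD i []
  have z1 : ∀ b, dotZ [] b = 0 := fun b => by simp [dotZ]
  have z2 : ∀ a, dotZ a [] = 0 := fun a => by simp [dotZ]
  have key : ∀ (row k2 : List ℤ), row.length ≤ 10 →
      dotZ (F.map fun col => dotZ row col) k2 =
        ∑ t : Fin 10, (∑ s : Fin 10, row.getD s 0 * (F.getD t []).getD s 0) * k2.getD t 0 := by
    intro row k2 hrow
    rw [dotZ_eq 10 _ _ (by rw [List.length_map, len_F F hF])]
    refine Finset.sum_congr rfl fun t _ => ?_
    rw [← dotZ_eq 10 _ _ hrow]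
    congr 1
    conv_lhs => rw [← z2 row]
    exact List.getD_map _ _ (fun col => dotZ row col)
  rw [sum_zipWith dotZ (F.map fun col => dotZ [] col) [] (fun b => by
      rw [key [] b (by simp)]
      simp) z2 10 _ _ (by rw [List.length_map, (len_K K hK).1]; norm_num)] at h1
  refine Eq.trans (Finset.sum_congr rfl fun e _ => ?_) h1
  rw [List.getD_map K [] (fun row => F.map fun col => dotZ row col), key]
  · rfl
  · by_cases he : (e : ℕ) < K.length
    · exact ((len_K K hK).2 _ (getD_mem' K [] e he)).le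
    · rw [List.getD_eq_default _ _ (not_lt.1 he)]
      simp

theorem g3_K_zero (i : Fin 15) (e s : ℕ) (he : 6 ≤ e) : g3 Kd i e s = 0 := by
  have := (len_K _ (getD_mem' Kd [] i i.2)).1
  simp only [g3]
  rw [List.getD_eq_default (Kd.getD i []) [] (by omega)]
  simp

theorem g3_K2_zero (i : Fin 15) (e s : ℕ) (he : 6 ≤ e) : g3 K2d i e s = 0 := by
  have := len_K2 _ (getD_mem' K2d [] i i.2)
  simp only [g3]
  rw [List.getD_eq_default (K2d.getD i []) [] (by omega)]
  simp

theorem sym1' (a b s t : Fin 10) :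
    ∑ i : Fin 15, (Dd.getD i 0 : ℤ) * (g3 Kd i a s * g3 Kd i b t) =
      ∑ i : Fin 15, (Dd.getD i 0 : ℤ) * (g3 Kd i b s * g3 Kd i a t) := by
  by_cases ha : (a : ℕ) < 6
  swap
  · simp [g3_K_zero _ a _ (not_lt.1 ha)]
  by_cases hb : (b : ℕ) < 6
  swap
  · simp [g3_K_zero _ b _ (not_lt.1 hb)]
  rcases lt_trichotomy a b with h | h | h
  · exact sym1 ⟨b, hb⟩ ⟨a, ha⟩ h s t
  · rw [h]
  · exact (sym1 ⟨a, ha⟩ ⟨b, hb⟩ h s t).symm

theorem sym2' (a b s t : Fin 10) :
    ∑ i : Fin 15, (Dd.getD i 0 : ℤ) * (g3 K2d i a s * g3 K2d i b t) =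
      ∑ i : Fin 15, (Dd.getD i 0 : ℤ) * (g3 K2d i a t * g3 K2d i b s) := by
  by_cases ha : (a : ℕ) < 6
  swap
  · simp [g3_K2_zero _ a _ (not_lt.1 ha)]
  by_cases hb : (b : ℕ) < 6
  swap
  · simp [g3_K2_zero _ b _ (not_lt.1 hb)]
  rcases lt_trichotomy s t with h | h | h
  · exact sym2 ⟨a, ha⟩ ⟨b, hb⟩ s t h
  · rw [h]
  · exact (sym2 ⟨a, ha⟩ ⟨b, hb⟩ t s h).symm

section
variable {k : Type*} [Field k]

theorem cast_of_emod (hp : (pp : k) = 0) {x y : ℤ} (h : (x - y) % pp = 0) : (x : k) = y := by
  obtain ⟨c, hc⟩ := Int.dvd_of_emod_eq_zero h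
  have : ((x - y : ℤ) : k) = ((pp * c : ℤ) : k) := by rw [hc]
  push_cast at this
  rw [hp, zero_mul] at this
  exact sub_eq_zero.1 this

theorem dot_map (l : List ℕ) (f : ℕ → ℕ) (g : ℕ → k) :
    dot (l.map f) (l.map g) = (l.map fun i => (f i : k) * g i).sum := by
  induction l with
  | nil => simp [dot]
  | cons a l ih => simp [dot, ih]

/-- Value of a quadric at one of the points. -/
def ev (a : Fin 10 → k) (i : ℕ) : k := ∑ s : Fin 10, (g2 Wd i s : k) * a s

open Classical in
theorem ten_le (hp : (pp : k) = 0) (a : Fin 10 → k) (ha : a ≠ 0) :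
    10 ≤ (List.range 10).countP (fun i => ev a i ≠ 0) +
      (List.range 9).countP (fun j => ev a (10 + j) ≠ 0) := by
  have hu : ∃ x ∈ (List.range 10).map (ev a), x ≠ 0 := by
    by_contra h
    push Not at h
    apply ha
    funext s
    have h1 : ∀ i : Fin 10, ev a i = 0 := fun i =>
      h _ (List.mem_map.2 ⟨i, List.mem_range.2 i.2, rfl⟩)
    have h2 : a s = ∑ i : Fin 10, (g2 Nd s i : k) * ev a i := by
      simp only [ev, Finset.mul_sum]
      rw [Finset.sum_comm]
      have h3 : ∀ t : Fin 10, ∑ i : Fin 10, (g2 Nd s i : k) * ((g2 Wd i t : k) * a t) =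
          if s = t then a t else 0 := by
        intro t
        have h4 := cast_of_emod hp (relN s t)
        push_cast at h4
        simp only [← mul_assoc, ← Finset.sum_mul, ← h4]
        split_ifs <;> simp
      simp [h3]
    simp [h2, h1]
  have h := chk_sound pp_prime hp 9 Md ((List.range 10).map (ev a)) (by simpa using Md_ok)
    chk_true hu
  have e0 : Md.length = 9 := rfl
  have e1 : wt ((List.range 10).map (ev a)) = (List.range 10).countP (fun i => ev a i ≠ 0) := by
    simp only [wt, List.countP_map]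
    rfl
  have e2 : nz Md ((List.range 10).map (ev a)) =
      (List.range 9).countP (fun j => ev a (10 + j) ≠ 0) := by
    conv_lhs => rw [Md_eq]
    simp only [nz, List.countP_map]
    refine List.countP_congr fun j hj => ?_
    have hj' := List.mem_range.1 hj
    have : dot ((List.range 10).map fun i => g2 Md j i) ((List.range 10).map (ev a)) =
        ev a (10 + j) := by
      have e : ((List.range 10).map fun i => (g2 Md j i : k) * ev a i).sum =
          ∑ i : Fin 10, (g2 Md j i : k) * ev a i := by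
        rw [Fin.sum_univ_eq_sum_range (fun i => (g2 Md j i : k) * ev a i) 10]
        rfl
      rw [dot_map, e]
      simp only [ev, Finset.mul_sum]
      rw [Finset.sum_comm]
      refine Finset.sum_congr rfl fun s _ => ?_
      have h4 := cast_of_emod hp (relM ⟨j, hj'⟩ s)
      push_cast at h4
      simp only [← mul_assoc, ← Finset.sum_mul, ← h4]
    simp [this]
  omega

theorem countP_add_le {α : Type*} (l : List α) (p q : α → Bool)
    (h : ∀ x ∈ l, ¬ (p x = true ∧ q x = true)) : l.countP p + l.countP q ≤ l.length := by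
  induction l with
  | nil => simp
  | cons a l ih =>
    have h1 := ih fun x hx => h x (by simp [hx])
    have h2 := h a (by simp)
    simp only [List.countP_cons, List.length_cons]
    cases hp : p a <;> cases hq : q a <;> simp_all <;> omega

end

theorem core (u v : Fin 10 → ℂ)
    (h : ∀ j : Fin 20, ∑ s : Fin 10, ∑ t : Fin 10, (g3 Fd j t s : ℂ) * (u s * v t) = 0) :
    u = 0 ∨ v = 0 := by
  classical
  by_contra hcon
  push Not at hcon
  obtain ⟨k, _, a, b, hp, ha, hb, hF⟩ := reduce pp pp_prime.two_le u v hcon.1 hcon.2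
  have hz : ∀ i < 19, ev a i * ev b i = 0 := by
    intro i hi
    have h1 : ev a i * ev b i = ∑ j : Fin 20, (g2 Cd i j : k) *
        ∑ s : Fin 10, ∑ t : Fin 10, (g3 Fd j t s : k) * (a s * b t) := by
      rw [ev, ev, Finset.sum_mul_sum]
      simp only [Finset.mul_sum]
      conv_rhs => rw [Finset.sum_comm]
      refine Finset.sum_congr rfl fun s _ => ?_
      conv_rhs => rw [Finset.sum_comm]
      refine Finset.sum_congr rfl fun t _ => ?_
      have h4 := cast_of_emod hp (relF ⟨i, hi⟩ s t)
      push_cast at h4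
      simp only [← mul_assoc, ← Finset.sum_mul, ← h4]
      ring
    rw [h1]
    exact Finset.sum_eq_zero fun j _ => by rw [hF (fun s t => g3 Fd j t s) (h j), mul_zero]
  have h1 := ten_le hp a ha
  have h2 := ten_le hp b hb
  have h3 := countP_add_le (List.range 10) (fun i => ev a i ≠ 0) (fun i => ev b i ≠ 0)
    fun i hi => by
      have := hz i (by have := List.mem_range.1 hi; omega)
      simpa [imp_iff_not_or] using this
  have h4 := countP_add_le (List.range 9) (fun i => ev a (10 + i) ≠ 0)
    (fun i => ev b (10 + i) ≠ 0) fun i hi => by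
      have := hz (10 + i) (by have := List.mem_range.1 hi; omega)
      simpa [imp_iff_not_or] using this
  simp only [List.length_range] at h3 h4
  omega

end Crest.Agent.R345
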