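import Crest.Agent.R345.Check

set_option autoImplicit false

/-! Explicit data for the counterexample to the PPT-squared conjecture, and the finite checks. -/

namespace Crest.Agent.R345

/-- The prime. -/
def pp : ℕ := 1040029

/-- Weights of the Kraus operators. -/
def Dd : List ℕ := [200, 24, 16, 20, 12, 96, 4, 5, 3, 300, 15, 9, 90, 6, 120]

/-- Kraus operators of the first map (output index first). -/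
def Kd : List (List (List ℤ)) :=
  [[[0, -3, 0, 0, 0, 0, 0, 0, 0, 0],
    [0, -6, 0, 0, -3, 0, -9, 0, 0, 0],
    [0, 3, 0, 0, 0, 0, 0, 0, 0, 0],
    [2, -1, 0, 6, -3, 0, -9, 0, 0, 0],
    [0, 3, 0, 0, 0, 0, 0, 0, 0, 0],
    [2, 5, 0, 6, 0, 0, 0, 0, 0, 0]],
   [[0, 3, 0, 0, 0, 0, 0, 0, 0, 0],
    [0, -2, 0, 0, -5, 0, -15, 0, 0, 0],
    [0, -15, 0, 0, 0, 12, 36, 0, 0, 0],
    [-2, -7, 0, -6, -5, 0, -15, 0, 0, 0],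
    [0, -15, 0, 0, 0, 12, 36, 0, 0, 0],
    [-10, -25, 8, -6, 0, 20, 60, 0, 24, 72]],
   [[0, 3, 0, 0, 0, 0, 0, 0, 0, 0],
    [0, -2, 10, 0, -5, 25, -15, 0, 30, 0],
    [0, 0, 0, 0, 0, -18, -9, 0, 0, 0],
    [-2, -7, 10, -6, -5, 25, -15, 0, 30, 0],
    [0, 0, 0, 0, 0, -18, -9, 0, 0, 0],
    [0, 0, -12, -6, 0, -30, -15, 0, -36, -18]],
   [[0, 12, 0, 0, 9, 9, 0, 0, 0, 0],
    [0, -2, -2, 0, -5, -5, -15, 0, -6, 0],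
    [0, 0, 0, 0, 0, 0, -9, 0, 0, 0],
    [-8, -28, -8, -24, -20, -20, -33, 0, -24, 0],
    [0, 0, 0, 0, 0, 0, -9, 0, 0, 0],
    [0, 0, 0, -6, 0, 0, -15, 0, 0, -18]],
   [[0, 0, 0, 0, -15, -15, -36, 0, 0, 0],
    [0, -10, -10, -24, -25, -25, -99, 0, -30, -72],
    [0, 0, 0, 0, 0, 0, -9, 0, 0, 0],
    [0, 0, 0, 0, 0, 0, -9, 0, 0, 0],
    [0, 0, 0, 0, 0, 0, -9, 0, 0, 0],
    [0, 0, 0, -6, 0, 0, -15, 0, 0, -18]],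
   [[0, 2, 0, 0, 0, 0, 0, 0, 0, 0],
    [0, 2, 0, 0, 0, 0, 0, 0, 0, 0],
    [0, -5, 0, 0, 0, 3, 9, 0, 0, 0],
    [2, 2, 0, 6, 0, 0, 0, 0, 0, 0],
    [5, -5, -5, -15, 0, 3, 9, 0, 0, 0],
    [10, 0, -8, -9, 0, 0, 0, 0, -9, -27]],
   [[0, 8, -25, 0, 0, 0, 0, 0, 0, 0],
    [0, 8, -40, 0, 0, 0, 0, 0, -45, 0],
    [0, -5, 25, 0, 0, -18, -9, 0, 0, 0],
    [8, 8, -40, 24, 0, 0, 0, 0, -45, 0],
    [-5, -5, 55, 15, 0, -18, -9, 0, 0, 0],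
    [0, 0, 48, 39, 0, 0, 0, 0, 54, 27]],
   [[0, 17, 5, 0, 9, 9, 0, 0, 0, 0],
    [0, 8, 8, 0, 0, 0, 0, 0, 9, 0],
    [0, -5, -5, 0, 0, 0, -9, 0, 0, 0],
    [32, 32, 32, 51, 0, 0, 27, 0, 36, 0],
    [-20, -20, -20, 15, 0, 0, -9, 0, 0, 0],
    [0, 0, 0, 39, 0, 0, 0, 0, 0, 27]],
   [[0, 25, 25, 60, -15, -15, -36, 0, 0, 0],
    [0, 40, 40, 96, 0, 0, 36, 0, 45, 108],
    [0, -25, -25, -60, 0, 0, -9, 0, 0, 0],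
    [0, 0, 0, 15, 0, 0, -9, 0, 0, 0],
    [0, 0, 0, 15, 0, 0, -9, 0, 0, 0],
    [0, 0, 0, 39, 0, 0, 0, 0, 0, 27]],
   [[0, 0, 1, 0, 0, 0, 0, 0, 0, 0],
    [0, 0, 0, 0, 0, 0, 0, 0, -3, 0],
    [0, 1, -5, 0, 0, -2, -3, 4, 12, 0],
    [0, 0, 0, 0, 0, 0, 0, 0, -3, 0],
    [1, 1, -7, -3, 0, -2, -3, 4, 12, 0],
    [0, 0, 0, -3, 0, 0, 0, 0, 6, 9]],
   [[0, 3, -1, 0, 3, 3, 0, 0, 0, 0],
    [0, 0, 0, 0, 0, 0, 0, 0, 3, 0],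
    [0, 5, 5, 0, 0, -4, -15, -4, -12, 0],
    [0, 0, 0, 9, 0, 0, 9, 0, 12, 0],
    [20, 20, 4, -51, 0, -16, -51, -16, -48, 0],
    [0, 0, 0, -15, 0, 0, 0, 0, 12, 45]],
   [[0, -5, -5, -12, -5, -5, -12, 0, 0, 0],
    [0, 0, 0, 0, 0, 0, 12, 0, 15, 36],
    [0, 25, 25, 60, 0, -20, -63, -20, -108, -144],
    [0, 0, 0, -3, 0, 0, -3, 0, 0, 0],
    [0, 0, 0, -3, 0, 0, -3, 0, 0, 0],
    [0, 0, 0, -15, 0, 0, 0, 0, 12, 45]],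
   [[0, 1, -7, 0, 1, -4, 0, -5, 0, 0],
    [0, 0, 0, 0, 0, 0, 0, 0, 6, 0],
    [0, 0, 0, 0, 0, 2, 0, 2, 6, 0],
    [0, 0, 0, 3, 0, 0, 3, 0, 9, 0],
    [0, 0, 8, 3, 0, 8, 3, 8, 9, 0],
    [0, 0, 0, 0, 0, 0, 0, 0, -6, 0]],
   [[0, -5, -5, -12, -5, 20, -12, 25, 60, 0],
    [0, 0, 0, 0, 0, 0, 12, 0, 30, 36],
    [0, 0, 0, 0, 0, 30, 12, 30, 102, 36],
    [0, 0, 0, -3, 0, 0, -3, 0, 15, 0],
    [0, 0, 0, -3, 0, 0, -3, 0, 15, 0],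
    [0, 0, 0, 0, 0, 0, 0, 0, -18, 0]],
   [[0, -5, -5, -12, -5, -10, -12, -5, -12, 0],
    [0, 0, 0, 0, 0, 0, 3, 0, 3, 9],
    [0, 0, 0, 0, 0, 0, 3, 0, 3, 9],
    [0, 0, 0, -3, 0, 0, -3, 0, -3, 0],
    [0, 0, 0, -3, 0, 0, -3, 0, -3, 0],
    [0, 0, 0, 0, 0, 0, 0, 0, 0, 0]]]

/-- Transposed Kraus operators of the second map (input index first). -/
def K2d : List (List (List ℤ)) :=
  [[[2, 5, 0, 6, 0, 0, 0, 0, 0, 0],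
    [0, -3, 0, 0, 0, 0, 0, 0, 0, 0],
    [2, -1, 0, 6, -3, 0, -9, 0, 0, 0],
    [0, 3, 0, 0, 0, 0, 0, 0, 0, 0],
    [0, 6, 0, 0, 3, 0, 9, 0, 0, 0],
    [0, -3, 0, 0, 0, 0, 0, 0, 0, 0]],
   [[-10, -25, 8, -6, 0, 20, 60, 0, 24, 72],
    [0, 15, 0, 0, 0, -12, -36, 0, 0, 0],
    [-2, -7, 0, -6, -5, 0, -15, 0, 0, 0],
    [0, -15, 0, 0, 0, 12, 36, 0, 0, 0],
    [0, 2, 0, 0, 5, 0, 15, 0, 0, 0],
    [0, 3, 0, 0, 0, 0, 0, 0, 0, 0]],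
   [[0, 0, -12, -6, 0, -30, -15, 0, -36, -18],
    [0, 0, 0, 0, 0, 18, 9, 0, 0, 0],
    [-2, -7, 10, -6, -5, 25, -15, 0, 30, 0],
    [0, 0, 0, 0, 0, -18, -9, 0, 0, 0],
    [0, 2, -10, 0, 5, -25, 15, 0, -30, 0],
    [0, 3, 0, 0, 0, 0, 0, 0, 0, 0]],
   [[0, 0, 0, -6, 0, 0, -15, 0, 0, -18],
    [0, 0, 0, 0, 0, 0, 9, 0, 0, 0],
    [-8, -28, -8, -24, -20, -20, -33, 0, -24, 0],
    [0, 0, 0, 0, 0, 0, -9, 0, 0, 0],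
    [0, 2, 2, 0, 5, 5, 15, 0, 6, 0],
    [0, 12, 0, 0, 9, 9, 0, 0, 0, 0]],
   [[0, 0, 0, -6, 0, 0, -15, 0, 0, -18],
    [0, 0, 0, 0, 0, 0, 9, 0, 0, 0],
    [0, 0, 0, 0, 0, 0, -9, 0, 0, 0],
    [0, 0, 0, 0, 0, 0, -9, 0, 0, 0],
    [0, 10, 10, 24, 25, 25, 99, 0, 30, 72],
    [0, 0, 0, 0, -15, -15, -36, 0, 0, 0]],
   [[10, 0, -8, -9, 0, 0, 0, 0, -9, -27],
    [-5, 5, 5, 15, 0, -3, -9, 0, 0, 0],
    [2, 2, 0, 6, 0, 0, 0, 0, 0, 0],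
    [0, -5, 0, 0, 0, 3, 9, 0, 0, 0],
    [0, -2, 0, 0, 0, 0, 0, 0, 0, 0],
    [0, 2, 0, 0, 0, 0, 0, 0, 0, 0]],
   [[0, 0, 48, 39, 0, 0, 0, 0, 54, 27],
    [5, 5, -55, -15, 0, 18, 9, 0, 0, 0],
    [8, 8, -40, 24, 0, 0, 0, 0, -45, 0],
    [0, -5, 25, 0, 0, -18, -9, 0, 0, 0],
    [0, -8, 40, 0, 0, 0, 0, 0, 45, 0],
    [0, 8, -25, 0, 0, 0, 0, 0, 0, 0]],
   [[0, 0, 0, 39, 0, 0, 0, 0, 0, 27],
    [20, 20, 20, -15, 0, 0, 9, 0, 0, 0],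
    [32, 32, 32, 51, 0, 0, 27, 0, 36, 0],
    [0, -5, -5, 0, 0, 0, -9, 0, 0, 0],
    [0, -8, -8, 0, 0, 0, 0, 0, -9, 0],
    [0, 17, 5, 0, 9, 9, 0, 0, 0, 0]],
   [[0, 0, 0, 39, 0, 0, 0, 0, 0, 27],
    [0, 0, 0, -15, 0, 0, 9, 0, 0, 0],
    [0, 0, 0, 15, 0, 0, -9, 0, 0, 0],
    [0, -25, -25, -60, 0, 0, -9, 0, 0, 0],
    [0, -40, -40, -96, 0, 0, -36, 0, -45, -108],
    [0, 25, 25, 60, -15, -15, -36, 0, 0, 0]],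
   [[0, 0, 0, -3, 0, 0, 0, 0, 6, 9],
    [-1, -1, 7, 3, 0, 2, 3, -4, -12, 0],
    [0, 0, 0, 0, 0, 0, 0, 0, -3, 0],
    [0, 1, -5, 0, 0, -2, -3, 4, 12, 0],
    [0, 0, 0, 0, 0, 0, 0, 0, 3, 0],
    [0, 0, 1, 0, 0, 0, 0, 0, 0, 0]],
   [[0, 0, 0, -15, 0, 0, 0, 0, 12, 45],
    [-20, -20, -4, 51, 0, 16, 51, 16, 48, 0],
    [0, 0, 0, 9, 0, 0, 9, 0, 12, 0],
    [0, 5, 5, 0, 0, -4, -15, -4, -12, 0],
    [0, 0, 0, 0, 0, 0, 0, 0, -3, 0],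
    [0, 3, -1, 0, 3, 3, 0, 0, 0, 0]],
   [[0, 0, 0, -15, 0, 0, 0, 0, 12, 45],
    [0, 0, 0, 3, 0, 0, 3, 0, 0, 0],
    [0, 0, 0, -3, 0, 0, -3, 0, 0, 0],
    [0, 25, 25, 60, 0, -20, -63, -20, -108, -144],
    [0, 0, 0, 0, 0, 0, -12, 0, -15, -36],
    [0, -5, -5, -12, -5, -5, -12, 0, 0, 0]],
   [[0, 0, 0, 0, 0, 0, 0, 0, -6, 0],
    [0, 0, -8, -3, 0, -8, -3, -8, -9, 0],
    [0, 0, 0, 3, 0, 0, 3, 0, 9, 0],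
    [0, 0, 0, 0, 0, 2, 0, 2, 6, 0],
    [0, 0, 0, 0, 0, 0, 0, 0, -6, 0],
    [0, 1, -7, 0, 1, -4, 0, -5, 0, 0]],
   [[0, 0, 0, 0, 0, 0, 0, 0, -18, 0],
    [0, 0, 0, 3, 0, 0, 3, 0, -15, 0],
    [0, 0, 0, -3, 0, 0, -3, 0, 15, 0],
    [0, 0, 0, 0, 0, 30, 12, 30, 102, 36],
    [0, 0, 0, 0, 0, 0, -12, 0, -30, -36],
    [0, -5, -5, -12, -5, 20, -12, 25, 60, 0]],
   [[0, 0, 0, 0, 0, 0, 0, 0, 0, 0],
    [0, 0, 0, 3, 0, 0, 3, 0, 3, 0],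
    [0, 0, 0, -3, 0, 0, -3, 0, -3, 0],
    [0, 0, 0, 0, 0, 0, 3, 0, 3, 9],
    [0, 0, 0, 0, 0, 0, -3, 0, -3, -9],
    [0, -5, -5, -12, -5, -10, -12, -5, -12, 0]]]

/-- Integral vectors in the kernel of the Choi matrix of the composition. -/
def Fd : List (List (List ℤ)) :=
  [[[1, 0, 0, 0, 0, 0, 0, 0, 0, 0],
    [0, 0, 0, 0, 0, 0, 0, 0, 0, 0],
    [0, 0, 0, 0, 0, 0, 0, 0, 0, 0],
    [0, 0, 0, 0, 0, 0, 0, 0, 0, 0],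
    [0, 0, 0, 0, 0, 0, 0, 0, 0, 0],
    [0, 0, 0, 0, 0, 0, 0, 0, 0, 0],
    [0, 0, 0, 0, 0, 0, 0, 0, 0, 0],
    [0, 0, 0, 0, 0, 0, 0, 0, 0, 0],
    [0, 0, 0, 0, 0, 0, 0, 0, 0, 0],
    [0, 0, 0, 0, 0, 0, 0, 0, 0, 0]],
   [[0, 0, 0, 0, 0, 0, 0, 0, 0, 0],
    [0, 0, 0, 0, 0, 0, 0, 0, 0, 0],
    [0, 0, 0, 0, 0, 0, 0, 0, 0, 0],
    [0, 0, 0, 0, 0, 0, 0, 0, 0, 0],
    [0, 0, 0, 0, 1, 0, 0, 0, 0, 0],
    [0, 0, 0, 0, 0, 0, 0, 0, 0, 0],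
    [0, 0, 0, 0, 0, 0, 0, 0, 0, 0],
    [0, 0, 0, 0, 0, 0, 0, 0, 0, 0],
    [0, 0, 0, 0, 0, 0, 0, 0, 0, 0],
    [0, 0, 0, 0, 0, 0, 0, 0, 0, 0]],
   [[0, 0, 0, 0, 0, 0, 0, 0, 0, 0],
    [0, 0, 0, 0, 0, 0, 0, 0, 0, 0],
    [0, 0, 0, 0, 0, 0, 0, 0, 0, 0],
    [0, 0, 0, 0, 0, 0, 0, 0, 0, 0],
    [0, 0, 0, 0, 0, 0, 0, 0, 0, 0],
    [0, 0, 0, 0, 0, 0, 0, 0, 0, 0],
    [0, 0, 0, 0, 0, 0, 0, 0, 0, 0],
    [0, 0, 0, 0, 0, 0, 0, 1, 0, 0],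
    [0, 0, 0, 0, 0, 0, 0, 0, 0, 0],
    [0, 0, 0, 0, 0, 0, 0, 0, 0, 0]],
   [[0, 0, 0, 0, 0, 0, 0, 0, 0, 0],
    [0, 0, 0, 0, 0, 0, 0, 0, 0, 0],
    [0, 0, 0, 0, 0, 0, 0, 0, 0, 0],
    [0, 0, 0, 0, 0, 0, 0, 0, 0, 0],
    [0, 0, 0, 0, 0, 0, 0, 0, 0, 0],
    [0, 0, 0, 0, 0, 0, 0, 0, 0, 0],
    [0, 0, 0, 0, 0, 0, 0, 0, 0, 0],
    [0, 0, 0, 0, 0, 0, 0, 0, 0, 0],
    [0, 0, 0, 0, 0, 0, 0, 0, 0, 0],
    [0, 0, 0, 0, 0, 0, 0, 0, 0, 1]],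
   [[0, 1, 0, 0, -1, 0, 0, 0, 0, 0],
    [1, -1, 0, 0, 1, 0, 0, 0, 0, 0],
    [0, 0, 0, 0, 0, 0, 0, 0, 0, 0],
    [0, 0, 0, 0, 0, 0, 0, 0, 0, 0],
    [-1, 1, 0, 0, 0, 0, 0, 0, 0, 0],
    [0, 0, 0, 0, 0, 0, 0, 0, 0, 0],
    [0, 0, 0, 0, 0, 0, 0, 0, 0, 0],
    [0, 0, 0, 0, 0, 0, 0, 0, 0, 0],
    [0, 0, 0, 0, 0, 0, 0, 0, 0, 0],
    [0, 0, 0, 0, 0, 0, 0, 0, 0, 0]],
   [[0, 0, 0, 0, 0, 0, 0, 0, 0, 0],
    [0, 0, 0, 0, 0, 0, 0, 0, 0, 0],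
    [0, 0, 0, 0, 0, 0, 0, 0, 0, 0],
    [0, 0, 0, 0, 0, 0, 0, 0, 0, 0],
    [0, 0, 0, 0, 0, 1, 0, -1, 0, 0],
    [0, 0, 0, 0, 1, -1, 0, 1, 0, 0],
    [0, 0, 0, 0, 0, 0, 0, 0, 0, 0],
    [0, 0, 0, 0, -1, 1, 0, 0, 0, 0],
    [0, 0, 0, 0, 0, 0, 0, 0, 0, 0],
    [0, 0, 0, 0, 0, 0, 0, 0, 0, 0]],
   [[0, 0, 1, 0, 0, -1, 0, 1, 0, 0],
    [0, 0, -1, 0, 0, 1, 0, -1, 0, 0],
    [1, -1, 1, 0, 1, -1, 0, 1, 0, 0],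
    [0, 0, 0, 0, 0, 0, 0, 0, 0, 0],
    [0, 0, 1, 0, 0, 0, 0, 0, 0, 0],
    [-1, 1, -1, 0, 0, 0, 0, 0, 0, 0],
    [0, 0, 0, 0, 0, 0, 0, 0, 0, 0],
    [1, -1, 1, 0, 0, 0, 0, 0, 0, 0],
    [0, 0, 0, 0, 0, 0, 0, 0, 0, 0],
    [0, 0, 0, 0, 0, 0, 0, 0, 0, 0]],
   [[0, 0, 0, 0, 0, 0, 0, 0, 0, 0],
    [0, 0, 0, 0, 0, 0, 0, 0, 0, 0],
    [0, 0, 0, 0, 0, 0, 0, 0, 0, 0],
    [0, 0, 0, 0, 0, 0, 0, 0, 0, 0],
    [0, 0, 0, 0, 0, 0, 9, 0, 0, -3],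
    [0, 0, 0, 0, 0, 0, 0, 0, 0, 0],
    [0, 0, 0, 0, 9, 0, -3, 0, 0, 1],
    [0, 0, 0, 0, 0, 0, 0, 0, 0, 0],
    [0, 0, 0, 0, 0, 0, 0, 0, 0, 0],
    [0, 0, 0, 0, -3, 0, 1, 0, 0, 0]],
   [[0, 0, 0, 0, 0, 0, 0, 0, 0, 0],
    [0, 0, 0, 0, 0, 0, 0, 0, 0, 0],
    [0, 0, 0, 0, 0, 0, 0, 0, 0, 0],
    [0, 0, 0, 0, 0, 0, 0, 0, 0, 0],
    [0, 0, 0, 0, 0, 0, 0, 0, 0, 0],
    [0, 0, 0, 0, 0, 0, 0, 0, 0, 0],
    [0, 0, 0, 0, 0, 0, 0, 0, 0, 0],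
    [0, 0, 0, 0, 0, 0, 0, 0, 9, -3],
    [0, 0, 0, 0, 0, 0, 0, 9, -3, 1],
    [0, 0, 0, 0, 0, 0, 0, -3, 1, 0]],
   [[0, 0, 0, 9, 0, 0, -9, 0, 0, 3],
    [0, 0, 0, -9, 0, 0, 9, 0, 0, -3],
    [0, 0, 0, 0, 0, 0, 0, 0, 0, 0],
    [9, -9, 0, 3, 9, 0, -3, 0, 0, 1],
    [0, 0, 0, 9, 0, 0, 0, 0, 0, 0],
    [0, 0, 0, 0, 0, 0, 0, 0, 0, 0],
    [-9, 9, 0, -3, 0, 0, 0, 0, 0, 0],
    [0, 0, 0, 0, 0, 0, 0, 0, 0, 0],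
    [0, 0, 0, 0, 0, 0, 0, 0, 0, 0],
    [3, -3, 0, 1, 0, 0, 0, 0, 0, 0]],
   [[0, 3, -3, 11, -6, 0, 1, 0, -2, 3],
    [3, -6, 0, 1, -9, 3, 2, -9, -1, -1],
    [-3, 0, 0, -2, 3, -9, -1, -6, 3, 2],
    [11, 1, -2, 3, 2, -1, -1, 3, 2, 1],
    [-6, -9, 3, 2, 0, -1, -5, 4, 7, -2],
    [0, 3, -9, -1, -1, 4, 7, 5, -6, -1],
    [1, 2, -1, -1, -5, 7, -2, -6, -1, 1],
    [0, -9, -6, 3, 4, 5, -6, 0, 2, -2],
    [-2, -1, 3, 2, 7, -6, -1, 2, -2, 3],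
    [3, -1, 2, 1, -2, -1, 1, -2, 3, 0]],
   [[0, 4, 8, 1, 2, -2, -6, 2, -6, 19],
    [4, 2, -2, -6, -2, 2, -6, -2, 0, 5],
    [8, -2, 2, -6, 2, -2, 0, -16, -6, 5],
    [1, -6, -6, 19, -6, 0, 5, -6, 5, -6],
    [2, -2, 2, -6, 0, 4, -6, -4, 0, -3],
    [-2, 2, -2, 0, 4, -4, 0, -8, 0, 2],
    [-6, -6, 0, 5, -6, 0, -3, 0, 2, 0],
    [2, -2, -16, -6, -4, -8, 0, 0, 1, 0],
    [-6, 0, -6, 5, 0, 0, 2, 1, 0, 0],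
    [19, 5, 5, -6, -3, 2, 0, 0, 0, 0]],
   [[0, -4, -2, 5, -2, -4, 9, -14, 9, 1],
    [-4, -2, -4, 9, 2, 4, -9, 5, -3, 2],
    [-2, -4, -14, 9, 4, 5, -3, 13, -6, 1],
    [5, 9, 9, 1, -9, -3, 2, -6, 1, 2],
    [-2, 2, 4, -9, 0, -8, 2, -7, 7, 1],
    [-4, 4, 5, -3, -8, -7, 7, 1, 2, -5],
    [9, -9, -3, 2, 2, 7, 1, 2, -5, 0],
    [-14, 5, 13, -6, -7, 1, 2, 0, -1, 1],
    [9, -3, -6, 1, 7, 2, -5, -1, 1, 2],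
    [1, 2, 1, 2, 1, -5, 0, 1, 2, 0]],
   [[0, -9, -1, 3, 0, -8, -3, -10, 12, -1],
    [-9, 0, -8, -3, 9, -1, 6, -8, 0, -3],
    [-1, -8, -10, 12, -1, -8, 0, -1, 0, -1],
    [3, -3, 12, -1, 6, 0, -3, 0, -1, 1],
    [0, 9, -1, 6, 0, 11, 2, 1, 4, 3],
    [-8, -1, -8, 0, 11, 1, 4, -10, 2, -6],
    [-3, 6, 0, -3, 2, 4, 3, 2, -6, 0],
    [-10, -8, -1, 0, 1, -10, 2, 0, -3, 4],
    [12, 0, 0, -1, 4, 2, -6, -3, 4, 2],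
    [-1, -3, -1, 1, 3, -6, 0, 4, 2, 0]],
   [[0, -8, -8, 19, -4, 5, 3, 4, -3, -3],
    [-8, -4, 5, 3, 4, -5, -3, -4, 3, -1],
    [-8, 5, 4, -3, -5, -4, 3, 13, 0, 0],
    [19, 3, -3, -3, -3, 3, -1, 0, 0, 3],
    [-4, 4, -5, -3, 0, 4, 1, 11, -1, -5],
    [5, -5, -4, 3, 4, 11, -1, 7, -8, 5],
    [3, -3, 3, -1, 1, -1, -5, -8, 5, 1],
    [4, -4, 13, 0, 11, 7, -8, 0, 0, -7],
    [-3, 3, 0, 0, -1, -8, 5, 0, -7, 4],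
    [-3, -1, 0, 3, -5, 5, 1, -7, 4, 0]],
   [[0, 19, -2, -7, -1, -7, 2, -2, 5, 5],
    [19, -1, -7, 2, -20, 4, -5, 2, 1, 5],
    [-2, -7, -2, 5, 4, 2, 1, -5, -6, 0],
    [-7, 2, 5, 5, -5, 1, 5, -6, 0, -4],
    [-1, -20, 4, -5, 0, -1, 2, -2, -1, -6],
    [-7, 4, 2, 1, -1, -2, -1, -1, 0, 1],
    [2, -5, 1, 5, 2, -1, -6, 0, 1, 2],
    [-2, 2, -5, -6, -2, -1, 0, 0, 2, -1],
    [5, 1, -6, 0, -1, 0, 1, 2, -1, 2],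
    [5, 5, 0, -4, -6, 1, 2, -1, 2, 0]],
   [[0, 3, 0, -2, 0, -6, -7, -3, 5, -5],
    [3, 0, -6, -7, -3, 3, 4, -6, -2, 5],
    [0, -6, -3, 5, 3, -6, -2, -15, -3, 7],
    [-2, -7, 5, -5, 4, -2, 5, -3, 7, -11],
    [0, -3, 3, 4, 0, 3, -5, -3, 9, -12],
    [-6, 3, -6, -2, 3, -3, 9, -6, -1, -3],
    [-7, 4, -2, 5, -5, 9, -12, -1, -3, 9],
    [-3, -6, -15, -3, -3, -6, -1, 0, -8, -6],
    [5, -2, -3, 7, 9, -1, -3, -8, -6, 10],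
    [-5, 5, 7, -11, -12, -3, 9, -6, 10, 0]],
   [[0, 3, 6, -18, -3, 3, 3, -12, 6, 5],
    [3, -3, 3, 3, -6, -3, 6, -6, -3, -5],
    [6, 3, -12, 6, -3, -6, -3, 6, -3, 3],
    [-18, 3, 6, 5, 6, -3, -5, -3, 3, 1],
    [-3, -6, -3, 6, 0, 2, 0, 7, 12, 9],
    [3, -3, -6, -3, 2, 7, 12, 5, -9, -6],
    [3, 6, -3, -5, 0, 12, 9, -9, -6, -6],
    [-12, -6, 6, -3, 7, 5, -9, 0, 5, 8],
    [6, -3, -3, 3, 12, -9, -6, 5, 8, -1],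
    [5, -5, 3, 1, 9, -6, -6, 8, -1, 0]],
   [[0, -1, -4, 8, -5, -2, 6, 2, 3, 1],
    [-1, -5, -2, 6, -4, 2, 3, 7, -9, 0],
    [-4, -2, 2, 3, 2, 7, -9, 2, 6, -2],
    [8, 6, 3, 1, 3, -9, 0, 6, -2, 5],
    [-5, -4, 2, 3, 0, 6, -1, -3, 4, 8],
    [-2, 2, 7, -9, 6, -3, 4, -9, 17, -18],
    [6, 3, -9, 0, -1, 4, 8, 17, -18, 5],
    [2, 7, 2, 6, -3, -9, 17, 0, 7, 6],
    [3, -9, 6, -2, 4, 17, -18, 7, 6, -1],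
    [1, 0, -2, 5, 8, -18, 5, 6, -1, 0]],
   [[0, -10, -18, -1, 4, -6, -3, 6, 12, 8],
    [-10, 4, -6, -3, 14, -3, -3, -6, 6, -2],
    [-18, -6, 6, 12, -3, -6, 6, 6, -6, -6],
    [-1, -3, 12, 8, -3, 6, -2, -6, -6, 1],
    [4, 14, -3, -3, 0, 1, 4, 5, 5, 3],
    [-6, -3, -6, 6, 1, 5, 5, 4, -11, 1],
    [-3, -3, 6, -2, 4, 5, 3, -11, 1, -6],
    [6, -6, 6, -6, 5, 4, -11, 0, -3, 5],
    [12, 6, -6, -6, 5, -11, 1, -3, 5, 3],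
    [8, -2, -6, 1, 3, 1, -6, 5, 3, 0]]]

/-- Squares of nineteen points modulo the prime. -/
def Wd : List (List ℕ) :=
  [[1, 0, 0, 0, 0, 0, 0, 0, 0, 0],
   [1, 1040028, 0, 0, 1, 0, 0, 0, 0, 0],
   [1, 159470, 712978, 476360, 931821, 551322, 371011, 574096, 249782, 122235],
   [1, 466732, 979701, 53259, 525658, 737050, 986488, 406113, 680658, 361998],
   [1, 957675, 521885, 478986, 152207, 921164, 846897, 118676, 478344, 310883],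
   [1, 986481, 208629, 542335, 28351, 325826, 815216, 845991, 1013776, 810851],
   [0, 0, 0, 0, 0, 0, 0, 1, 0, 0],
   [0, 0, 0, 0, 0, 0, 0, 1, 346676, 577794],
   [1, 882256, 39328, 259290, 265443, 956499, 579545, 168461, 912804, 709453],
   [1, 87319, 777675, 835378, 155162, 229857, 897638, 502096, 551358, 63971],
   [1, 313378, 457928, 516977, 1032559, 319335, 780889, 126001, 602502, 646167],
   [0, 0, 0, 0, 1, 0, 0, 0, 0, 0],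
   [0, 0, 0, 0, 1, 0, 346676, 0, 0, 577794],
   [0, 0, 0, 0, 0, 0, 0, 0, 0, 1],
   [1, 107653, 108181, 17161, 125262, 804480, 341629, 722453, 42376, 171714],
   [1, 1040028, 1, 0, 1, 1040028, 0, 1, 0, 0],
   [1, 682742, 1806, 194557, 840909, 597687, 771443, 141549, 880169, 570794],
   [1, 827552, 126135, 934644, 896697, 760935, 64275, 714612, 913703, 568563],
   [0, 0, 0, 0, 1, 1040028, 0, 1, 0, 0]]

/-- Fourth powers of the points in terms of the kernel vectors. -/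
def Cd : List (List ℕ) :=
  [[1, 0, 0, 0, 0, 0, 0, 0, 0, 0, 0, 0, 0, 0, 0, 0, 0, 0, 0, 0],
   [1, 1, 0, 0, 1040028, 0, 0, 0, 0, 0, 0, 0, 0, 0, 0, 0, 0, 0, 0, 0],
   [1, 324782, 1027116, 338611, 166362, 769897, 223921, 996966, 318204, 889560, 228560, 298746, 643124, 172022, 610135, 880134, 730975, 132657, 15334, 178360],
   [1, 388215, 1009978, 978062, 543239, 450408, 36964, 351636, 355483, 194120, 157186, 1024841, 852934, 699272, 913433, 941234, 337765, 1025355, 407411, 504006],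
   [1, 324874, 960287, 424777, 126566, 925281, 221841, 594846, 473472, 745811, 124023, 348459, 75035, 886102, 449296, 988429, 970041, 728689, 797235, 798436],
   [1, 876813, 655615, 51155, 420374, 383609, 418849, 369936, 78163, 632946, 290479, 426744, 458238, 924650, 605648, 730193, 359778, 317580, 848775, 830946],
   [0, 0, 1, 0, 0, 0, 0, 0, 0, 0, 0, 0, 0, 0, 0, 0, 0, 0, 0, 0],
   [0, 0, 1, 757552, 0, 0, 0, 0, 847431, 0, 0, 0, 0, 0, 0, 0, 0, 0, 0, 0],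
   [1, 101557, 877227, 484630, 255382, 434397, 585082, 302214, 398651, 289486, 743361, 736356, 125471, 766610, 711532, 335730, 881646, 936203, 595112, 61225],
   [1, 654952, 483703, 814755, 21684, 684125, 166967, 909701, 715139, 766779, 630321, 563099, 136188, 225924, 195474, 563436, 599424, 769355, 649772, 681751],
   [1, 679363, 209316, 709520, 510832, 94228, 276758, 66860, 193381, 478849, 607557, 325585, 184403, 1020948, 449163, 965888, 504423, 794343, 687553, 512346],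
   [0, 1, 0, 0, 0, 0, 0, 0, 0, 0, 0, 0, 0, 0, 0, 0, 0, 0, 0, 0],
   [0, 1, 0, 757552, 0, 0, 0, 847431, 0, 0, 0, 0, 0, 0, 0, 0, 0, 0, 0, 0],
   [0, 0, 0, 1, 0, 0, 0, 0, 0, 0, 0, 0, 0, 0, 0, 0, 0, 0, 0, 0],
   [1, 691150, 823588, 875646, 625507, 694337, 176770, 709544, 140704, 700228, 669107, 735022, 796334, 965462, 587985, 165372, 434821, 339098, 294442, 653662],
   [1, 1, 1, 0, 1040028, 1040028, 1, 0, 0, 0, 0, 0, 0, 0, 0, 0, 0, 0, 0, 0],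
   [1, 788862, 1000745, 65722, 228519, 124056, 108644, 43803, 353045, 301558, 827223, 121516, 487128, 771102, 1027667, 451446, 116845, 287513, 83237, 31120],
   [1, 369387, 471109, 1031160, 531690, 458891, 160425, 689846, 327106, 262565, 584843, 844497, 395814, 188654, 198793, 772016, 269424, 597878, 522471, 423256],
   [0, 1, 1, 0, 0, 1040028, 0, 0, 0, 0, 0, 0, 0, 0, 0, 0, 0, 0, 0, 0]]

/-- The last nine squares in terms of the first ten. -/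
def Md : List (List ℕ) :=
  [[927457, 43926, 909392, 635923, 981414, 694707, 278366, 913561, 679373, 327954],
   [614295, 810469, 186296, 690012, 841008, 251151, 44931, 928178, 575334, 191551],
   [642075, 522106, 234754, 484484, 570886, 8097, 846624, 71818, 704624, 993090],
   [765902, 636185, 193581, 238022, 976193, 843452, 656814, 16436, 13947, 492834],
   [928108, 935515, 290527, 720099, 105767, 179719, 371759, 57242, 170296, 830086],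
   [655465, 179084, 706740, 444905, 466603, 841386, 414091, 306145, 433399, 432535],
   [784049, 1032242, 702981, 116588, 469648, 576004, 283169, 634559, 650166, 868468],
   [200673, 678068, 62617, 955035, 57281, 283320, 708298, 468295, 722074, 161020],
   [334011, 987915, 890066, 889637, 327938, 191777, 787237, 675983, 926388, 652413]]

/-- The unit vectors in terms of the first ten squares. -/
def Nd : List (List ℕ) :=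
  [[1, 0, 0, 0, 0, 0, 0, 0, 0, 0],
   [614296, 810468, 186296, 690012, 841008, 251151, 44931, 928178, 575334, 191551],
   [935749, 1637, 2970, 245280, 979673, 900760, 711814, 558340, 82345, 1011702],
   [634514, 428053, 982064, 378811, 759274, 352674, 399986, 734698, 683926, 980829],
   [614295, 810469, 186296, 690012, 841008, 251151, 44931, 928178, 575334, 191551],
   [280284, 862583, 336259, 840404, 513070, 59374, 297724, 252195, 688975, 579167],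
   [518637, 383798, 959182, 2572, 442411, 316960, 933946, 841177, 656808, 879748],
   [0, 0, 0, 0, 0, 0, 1, 0, 0, 0],
   [601977, 558738, 64527, 426017, 672074, 627827, 218941, 352152, 4649, 164278],
   [765902, 636185, 193581, 238022, 976193, 843452, 656814, 16436, 13947, 492834]]

/-- Entry of a triple list. -/
def g3 (L : List (List (List ℤ))) (i j l : ℕ) : ℤ := ((L.getD i []).getD j []).getD l 0

/-- Entry of a double list. -/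
def g2 (L : List (List ℕ)) (i j : ℕ) : ℕ := (L.getD i []).getD j 0

/-- Dot product of integer lists. -/
def dotZ (a b : List ℤ) : ℤ := (List.zipWith (fun x y => x * y) a b).sum

/-- The kernel vectors annihilate all products of Kraus operators. -/
def chkA : Bool :=
  Fd.all fun F => Kd.all fun K => K2d.all fun K2 =>
    (List.zipWith dotZ (K.map fun row => F.map fun col => dotZ row col) K2).sum == 0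

theorem chkA_true : chkA = true := by decide +kernel

theorem chk_true : chk pp 9 Md = true := by decide +kernel

theorem sym1 : ∀ b : Fin 6, ∀ a : Fin 6, a < b → ∀ s t : Fin 10,
    ∑ i : Fin 15, (Dd.getD i 0 : ℤ) * (g3 Kd i a s * g3 Kd i b t) =
      ∑ i : Fin 15, (Dd.getD i 0 : ℤ) * (g3 Kd i b s * g3 Kd i a t) := by decide +kernel

theorem sym2 : ∀ a b : Fin 6, ∀ s t : Fin 10, s < t →
    ∑ i : Fin 15, (Dd.getD i 0 : ℤ) * (g3 K2d i a s * g3 K2d i b t) =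
      ∑ i : Fin 15, (Dd.getD i 0 : ℤ) * (g3 K2d i a t * g3 K2d i b s) := by decide +kernel

theorem relF : ∀ i : Fin 19, ∀ s t : Fin 10,
    ((g2 Wd i s : ℤ) * g2 Wd i t - ∑ j : Fin 20, (g2 Cd i j : ℤ) * g3 Fd j t s) % pp = 0 := by
  decide +kernel

theorem relM : ∀ j : Fin 9, ∀ s : Fin 10,
    ((g2 Wd (10 + j) s : ℤ) - ∑ i : Fin 10, (g2 Md j i : ℤ) * g2 Wd i s) % pp = 0 := by
  decide +kernel

theorem relN : ∀ s t : Fin 10,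
    ((if s = t then 1 else 0 : ℤ) - ∑ i : Fin 10, (g2 Nd s i : ℤ) * g2 Wd i t) % pp = 0 := by
  decide +kernel

theorem Md_eq : Md = (List.range 9).map fun j => (List.range 10).map fun i => g2 Md j i := by
  decide +kernel

theorem Md_ok : Ok pp 10 Md := by
  unfold Ok
  decide +kernel

theorem pp_prime : pp.Prime := by
  unfold pp
  norm_num

theorem len_K : ∀ K ∈ Kd, K.length = 6 ∧ ∀ r ∈ K, r.length = 10 := by decide +kernel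

theorem len_K2 : ∀ K ∈ K2d, K.length = 6 := by decide +kernel

theorem len_F : ∀ F ∈ Fd, F.length = 10 := by decide +kernel

end Crest.Agent.R345
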