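import Crest.Agent.R345.Maps

set_option autoImplicit false

/-! The channel on `21 × 21` matrices. -/

namespace Crest.Agent.R345

open Crest.Quantum Matrix
open scoped ComplexOrder Kronecker MatrixOrder

/-- Matrix of an embedding of index sets. -/
def emb (f : Fin 10 → Fin 21) : Matrix (Fin 21) (Fin 10) ℂ :=
  of fun i s => if i = f s then 1 else 0

theorem emb_mul (f g : Fin 10 → Fin 21) :
    (emb f)ᴴ * emb g = of fun s t => if f s = g t then 1 else 0 := by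
  ext s t
  simp [emb, Matrix.mul_apply, conjTranspose_apply, apply_ite (star : ℂ → ℂ), eq_comm]

theorem emb_conj (f : Fin 10 → Fin 21) : (emb f)ᴴ = (emb f)ᵀ := by
  ext s t
  simp [emb, conjTranspose_apply, apply_ite (star : ℂ → ℂ)]

theorem emb_single (f : Fin 10 → Fin 21) (z : Fin 21) (h : ∀ s, f s ≠ z) :
    (emb f)ᴴ * single z z (1 : ℂ) = 0 := by
  ext s t
  simp only [emb, Matrix.mul_apply, conjTranspose_apply, of_apply, Matrix.zero_apply]
  refine Finset.sum_eq_zero fun x _ => ?_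
  by_cases hx : x = f s
  · rw [Matrix.single_apply_of_row_ne (fun h' => h s (hx.symm.trans h'.symm)), mul_zero]
  · simp [hx]

/-- First block. -/
def f₁ (s : Fin 10) : Fin 21 := ⟨s, by omega⟩

/-- Second block. -/
def f₂ (s : Fin 10) : Fin 21 := ⟨10 + s, by omega⟩

theorem e11 : (emb f₁)ᴴ * emb f₁ = 1 := by
  rw [emb_mul]
  ext s t
  simp [f₁, Matrix.one_apply, Fin.ext_iff]

theorem e22 : (emb f₂)ᴴ * emb f₂ = 1 := by
  rw [emb_mul]
  ext s t
  simp [f₂, Matrix.one_apply, Fin.ext_iff]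

theorem e12 : (emb f₁)ᴴ * emb f₂ = 0 := by
  rw [emb_mul]
  ext s t
  simp only [f₁, f₂, Fin.ext_iff, of_apply, Matrix.zero_apply]
  rw [if_neg (by omega)]

theorem e21 : (emb f₂)ᴴ * emb f₁ = 0 := by
  rw [emb_mul]
  ext s t
  simp only [f₁, f₂, Fin.ext_iff, of_apply, Matrix.zero_apply]
  rw [if_neg (by omega)]

theorem e1z : (emb f₁)ᴴ * single (20 : Fin 21) (20 : Fin 21) (1 : ℂ) = 0 :=
  emb_single f₁ 20 fun s h => by
    have h1 : (s : ℕ) = 20 := congrArg Fin.val h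
    omega

theorem e2z : (emb f₂)ᴴ * single (20 : Fin 21) (20 : Fin 21) (1 : ℂ) = 0 :=
  emb_single f₂ 20 fun s h => by
    have h1 : 10 + (s : ℕ) = 20 := congrArg Fin.val h
    omega

theorem cp_sink {E : Matrix (Fin 21) (Fin 21) ℂ} (hE : E.PosSemidef) (z : Fin 21) :
    IsCompletelyPositive fun X : Matrix (Fin 21) (Fin 21) ℂ =>
      (E * X).trace • single z z (1 : ℂ) := by
  obtain ⟨G, rfl⟩ := CStarAlgebra.nonneg_iff_eq_star_mul_self.mp hE.nonneg
  let J : Fin 21 → Matrix (Fin 21) (Fin 21) ℂ := fun a => of fun i j => if i = z then G a j else 0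
  have h := cp_sum Finset.univ (fun a X => J a * X * (J a)ᴴ) fun a _ => cp_conj (J a)
  convert h using 2 with X
  rw [star_eq_conjTranspose, Matrix.mul_assoc, Matrix.trace_mul_comm]
  ext i j
  simp only [Matrix.sum_apply, Matrix.mul_apply, J, conjTranspose_apply, of_apply, trace, diag,
    Matrix.smul_apply, Matrix.single, smul_eq_mul]
  by_cases hi : i = z <;> by_cases hj : j = z
  · simp [hi, hj]
  · simp [hj, Ne.symm hj]
  · simp [hi, Ne.symm hi]
  · simp [hi, Ne.symm hi]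

/-- The part of the channel exchanging the two blocks. -/
noncomputable def Ψ (X : Matrix (Fin 21) (Fin 21) ℂ) : Matrix (Fin 21) (Fin 21) ℂ :=
  emb f₂ * Φ₁ ((emb f₁)ᴴ * X * emb f₁) * (emb f₂)ᴴ +
    emb f₁ * Φ₂ ((emb f₂)ᴴ * X * emb f₂) * (emb f₁)ᴴ

theorem lin₁ : IsLinearMap ℂ Φ₁ := lin_kr _ _

theorem lin₂ : IsLinearMap ℂ Φ₂ := lin_kr _ _

theorem cp_Ψ : IsCompletelyPositive Ψ := by
  have h1 := cp_comp (cp_conj (emb f₂)) (cp_comp (cp_kr cc K1m) (cp_conj (emb f₁)ᴴ))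
  have h2 := cp_comp (cp_conj (emb f₁)) (cp_comp (cp_kr cc K2m) (cp_conj (emb f₂)ᴴ))
  simp only [conjTranspose_conjTranspose] at h1 h2
  exact cp_add h1 h2

theorem Ψ_symm (X : Matrix (Fin 21) (Fin 21) ℂ) : (Ψ X)ᵀ = Ψ X := by
  simp only [Ψ, transpose_add]
  have h : ∀ (f : Fin 10 → Fin 21) (Y : Matrix (Fin 10) (Fin 10) ℂ), Yᵀ = Y →
      (emb f * Y * (emb f)ᴴ)ᵀ = emb f * Y * (emb f)ᴴ := by
    intro f Y hY
    rw [emb_conj, transpose_mul, transpose_mul, transpose_transpose, hY, Matrix.mul_assoc]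
  rw [h _ _ (Φ₁_symm _), h _ _ (Φ₂_symm _)]

theorem trace_Ψ : ∃ H : Matrix (Fin 21) (Fin 21) ℂ, H.IsHermitian ∧
    ∀ X, (Ψ X).trace = (H * X).trace := by
  have hH : ∀ K : Fin 15 → Matrix (Fin 10) (Fin 10) ℂ,
      (∑ i, (cc i : ℂ) • ((K i)ᴴ * K i)).PosSemidef := fun K =>
    posSemidef_sum _ fun i _ => (posSemidef_conjTranspose_mul_self _).smul (Nat.cast_nonneg _)
  refine ⟨emb f₁ * (∑ i, (cc i : ℂ) • ((K1m i)ᴴ * K1m i)) * (emb f₁)ᴴ +
    emb f₂ * (∑ i, (cc i : ℂ) • ((K2m i)ᴴ * K2m i)) * (emb f₂)ᴴ,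
    (((hH _).mul_mul_conjTranspose_same _).add ((hH _).mul_mul_conjTranspose_same _)).1,
    fun X => ?_⟩
  have h : ∀ (f : Fin 10 → Fin 21) (H : Matrix (Fin 10) (Fin 10) ℂ),
      (H * ((emb f)ᴴ * X * emb f)).trace = (emb f * H * (emb f)ᴴ * X).trace := by
    intro f H
    rw [← Matrix.mul_assoc, Matrix.trace_mul_comm]
    simp only [Matrix.mul_assoc]
  simp only [Ψ, trace_add, Matrix.add_mul]
  rw [Matrix.trace_mul_cycle (emb f₂), e22, Matrix.trace_mul_cycle (emb f₁), e11, Matrix.one_mul,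
    Matrix.one_mul, Φ₁, Φ₂, trace_kr, trace_kr, h, h]

theorem gadget : ∃ Θ : Matrix (Fin 21) (Fin 21) ℂ → Matrix (Fin 21) (Fin 21) ℂ,
    IsChannel Θ ∧ IsPPT Θ ∧ ¬ IsEntanglementBreaking (Θ ∘ Θ) := by
  obtain ⟨H, hH, htr⟩ := trace_Ψ
  obtain ⟨ε, hε, hE⟩ := exists_smul_one_sub hH
  set E := 1 - (ε : ℂ) • H with hEdef
  let Θ : Matrix (Fin 21) (Fin 21) ℂ → Matrix (Fin 21) (Fin 21) ℂ :=
    fun X => (ε : ℂ) • Ψ X + (E * X).trace • single 20 20 (1 : ℂ)
  have hε' : (0 : ℂ) ≤ (ε : ℂ) := Complex.zero_le_real.2 hε.le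
  have hcp : IsCompletelyPositive Θ := cp_add (cp_smul cp_Ψ hε') (cp_sink hE 20)
  refine ⟨Θ, ⟨⟨fun X Y => ?_, fun c X => ?_⟩, hcp, fun X => ?_⟩, ppt_of_symm hcp fun X => ?_,
    fun h => ?_⟩
  · simp only [Θ, Ψ, Matrix.mul_add, Matrix.add_mul, lin₁.map_add, lin₂.map_add, trace_add,
      smul_add, add_smul]
    abel
  · simp only [Θ, Ψ, Matrix.mul_smul, Matrix.smul_mul, lin₁.map_smul, lin₂.map_smul, trace_smul,
      smul_add, smul_smul, smul_eq_mul, mul_comm]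
  · simp only [Θ, trace_add, trace_smul, htr, hEdef, Matrix.sub_mul, Matrix.one_mul, trace_sub,
      Matrix.smul_mul, smul_eq_mul, trace_single_eq_same]
    ring
  · simp only [Θ, transpose_add, transpose_smul, Ψ_symm, transpose_single]
  · apply not_eb
    have hc : (0 : ℂ) ≤ (((ε * ε)⁻¹ : ℝ) : ℂ) := Complex.zero_le_real.2 (by positivity)
    have h1 := eb_compress h (emb f₁) hc
    convert h1 using 1
    funext X
    have a1 : ∀ Y, (emb f₁)ᴴ * Θ Y * emb f₁ = (ε : ℂ) • Φ₂ ((emb f₂)ᴴ * Y * emb f₂) := by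
      intro Y
      simp only [Θ, Ψ, Matrix.mul_add, Matrix.add_mul, Matrix.mul_smul, Matrix.smul_mul,
        ← Matrix.mul_assoc, e11, e12, e1z, Matrix.zero_mul, Matrix.one_mul, smul_zero, zero_add,
        add_zero]
      rw [Matrix.mul_assoc, e11, Matrix.mul_one]
    have a2 : ∀ Y, (emb f₂)ᴴ * Θ Y * emb f₂ = (ε : ℂ) • Φ₁ ((emb f₁)ᴴ * Y * emb f₁) := by
      intro Y
      simp only [Θ, Ψ, Matrix.mul_add, Matrix.add_mul, Matrix.mul_smul, Matrix.smul_mul,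
        ← Matrix.mul_assoc, e22, e21, e2z, Matrix.zero_mul, Matrix.one_mul, smul_zero,
        add_zero]
      rw [Matrix.mul_assoc, e22, Matrix.mul_one]
    have a3 : (emb f₁)ᴴ * (emb f₁ * X * (emb f₁)ᴴ) * emb f₁ = X := by
      simp only [← Matrix.mul_assoc, e11, Matrix.one_mul]
      rw [Matrix.mul_assoc, e11, Matrix.mul_one]
    simp only [Function.comp]
    rw [a1, a2, a3, lin₂.map_smul, smul_smul, smul_smul]
    have : (((ε * ε)⁻¹ : ℝ) : ℂ) * ε * ε = 1 := by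
      have : (ε : ℂ) ≠ 0 := by exact_mod_cast hε.ne'
      push_cast
      field_simp
    rw [this, one_smul]

end Crest.Agent.R345
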