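import Crest.Prelude.Def_Entanglement

set_option autoImplicit false
set_option linter.unusedSectionVars false

/-! General facts on completely positive and entanglement breaking maps. -/

namespace Crest.Agent.R345

open Crest.Quantum Matrix
open scoped ComplexOrder Kronecker

section
variable {d e f : Type*} [Fintype d] [Fintype e] [Fintype f]
  [DecidableEq d] [DecidableEq e] [DecidableEq f]

theorem blockwise_conj {k : Type*} [Fintype k] [DecidableEq k] (V : Matrix e d ℂ)
    (M : Matrix (k × d) (k × d) ℂ) :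
    blockwise (fun X => V * X * Vᴴ) M =
      ((1 : Matrix k k ℂ) ⊗ₖ V) * M * ((1 : Matrix k k ℂ) ⊗ₖ V)ᴴ := by
  ext ⟨s, a⟩ ⟨t, b⟩
  simp [blockwise, block, Matrix.mul_apply, Fintype.sum_prod_type, Matrix.one_apply,
    conjTranspose_apply, kroneckerMap_apply, apply_ite (star : ℂ → ℂ), Finset.sum_mul]

theorem cp_conj (V : Matrix e d ℂ) : IsCompletelyPositive fun X : Matrix d d ℂ => V * X * Vᴴ := by
  intro k M hM
  rw [blockwise_conj]
  exact hM.mul_mul_conjTranspose_same _

theorem cp_sum {ι : Type*} (s : Finset ι) (Φ : ι → Matrix d d ℂ → Matrix e e ℂ)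
    (h : ∀ i ∈ s, IsCompletelyPositive (Φ i)) :
    IsCompletelyPositive fun X => ∑ i ∈ s, Φ i X := by
  intro k M hM
  have : blockwise (k := Fin k) (fun X => ∑ i ∈ s, Φ i X) M =
      ∑ i ∈ s, blockwise (k := Fin k) (Φ i) M := by
    ext p q
    simp [blockwise, Matrix.sum_apply]
  rw [this]
  exact posSemidef_sum s fun i hi => h i hi k M hM

theorem cp_add {Φ Ψ : Matrix d d ℂ → Matrix e e ℂ} (h1 : IsCompletelyPositive Φ)
    (h2 : IsCompletelyPositive Ψ) : IsCompletelyPositive fun X => Φ X + Ψ X := by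
  intro k M hM
  have : blockwise (k := Fin k) (fun X => Φ X + Ψ X) M =
      blockwise (k := Fin k) Φ M + blockwise (k := Fin k) Ψ M := by
    ext p q
    simp [blockwise]
  rw [this]
  exact (h1 k M hM).add (h2 k M hM)

theorem cp_smul {Φ : Matrix d d ℂ → Matrix e e ℂ} (h1 : IsCompletelyPositive Φ) {c : ℂ}
    (hc : 0 ≤ c) : IsCompletelyPositive fun X => c • Φ X := by
  intro k M hM
  have : blockwise (k := Fin k) (fun X => c • Φ X) M = c • blockwise (k := Fin k) Φ M := by
    ext p q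
    simp [blockwise]
  rw [this]
  exact (h1 k M hM).smul hc

theorem blockwise_comp {k : Type*} (Φ : Matrix e e ℂ → Matrix f f ℂ)
    (Ψ : Matrix d d ℂ → Matrix e e ℂ) (M : Matrix (k × d) (k × d) ℂ) :
    blockwise (fun X => Φ (Ψ X)) M = blockwise Φ (blockwise Ψ M) := rfl

theorem cp_comp {Φ : Matrix e e ℂ → Matrix f f ℂ} {Ψ : Matrix d d ℂ → Matrix e e ℂ}
    (h1 : IsCompletelyPositive Φ) (h2 : IsCompletelyPositive Ψ) :
    IsCompletelyPositive fun X => Φ (Ψ X) := by
  intro k M hM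
  rw [blockwise_comp]
  exact h1 k _ (h2 k M hM)

/-- A map in weighted Kraus form. -/
noncomputable def kr {ι : Type*} [Fintype ι] (c : ι → ℕ) (K : ι → Matrix e d ℂ)
    (X : Matrix d d ℂ) : Matrix e e ℂ :=
  ∑ i, (c i : ℂ) • (K i * X * (K i)ᴴ)

theorem cp_kr {ι : Type*} [Fintype ι] (c : ι → ℕ) (K : ι → Matrix e d ℂ) :
    IsCompletelyPositive (kr c K) :=
  cp_sum _ _ fun i _ => cp_smul (cp_conj (K i)) (Nat.cast_nonneg _)

omit [DecidableEq d] [DecidableEq e] [Fintype e] in
theorem lin_kr {ι : Type*} [Fintype ι] (c : ι → ℕ) (K : ι → Matrix e d ℂ) :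
    IsLinearMap ℂ (kr c K) := by
  constructor
  · intro X Y
    simp [kr, Matrix.mul_add, Matrix.add_mul, Finset.sum_add_distrib]
  · intro a X
    simp only [kr, Matrix.mul_smul, Matrix.smul_mul, Finset.smul_sum]
    exact Finset.sum_congr rfl fun i _ => smul_comm _ _ _

omit [DecidableEq d] [DecidableEq e] [Fintype e] in
theorem kr_apply {ι : Type*} [Fintype ι] (c : ι → ℕ) (K : ι → Matrix e d ℂ) (X : Matrix d d ℂ)
    (a b : e) :
    kr c K X a b = ∑ s, ∑ t, (∑ i, (c i : ℂ) * (K i a s * star (K i b t))) * X s t := by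
  simp only [kr, Matrix.sum_apply, Matrix.smul_apply, Matrix.mul_apply, conjTranspose_apply,
    smul_eq_mul, Finset.sum_mul, Finset.mul_sum]
  rw [Finset.sum_comm]
  conv_rhs => rw [Finset.sum_comm]
  refine Finset.sum_congr rfl fun t _ => ?_
  rw [Finset.sum_comm]
  refine Finset.sum_congr rfl fun s _ => Finset.sum_congr rfl fun i _ => by ring

omit [DecidableEq d] [DecidableEq e] in
theorem trace_kr {ι : Type*} [Fintype ι] (c : ι → ℕ) (K : ι → Matrix e d ℂ) (X : Matrix d d ℂ) :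
    (kr c K X).trace = ((∑ i, (c i : ℂ) • ((K i)ᴴ * K i)) * X).trace := by
  simp only [kr, trace_sum, trace_smul, Finset.sum_mul, Matrix.smul_mul]
  refine Finset.sum_congr rfl fun i _ => ?_
  rw [Matrix.trace_mul_cycle]

theorem eb_compress {Ξ : Matrix e e ℂ → Matrix e e ℂ} (h : IsEntanglementBreaking Ξ)
    (V : Matrix e d ℂ) {c : ℂ} (hc : 0 ≤ c) :
    IsEntanglementBreaking fun X : Matrix d d ℂ => c • (Vᴴ * Ξ (V * X * Vᴴ) * V) := by
  intro k M hM
  obtain ⟨r, A, B, hA, hB, hs⟩ := h k _ (cp_conj V k M hM)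
  refine ⟨r, A, fun i => c • (Vᴴ * B i * V), hA,
    fun i => ((hB i).conjTranspose_mul_mul_same V).smul hc, ?_⟩
  ext ⟨s, a⟩ ⟨t, b⟩
  have h1 : ∀ x y, Ξ (V * block M s t * Vᴴ) x y = ∑ i, A i s t * B i x y := by
    intro x y
    have := congrFun (congrFun hs (s, x)) (t, y)
    rw [Matrix.sum_apply] at this
    exact this
  have h2 : Ξ (V * block M s t * Vᴴ) = ∑ i, A i s t • B i := by
    ext x y
    simp [h1, Matrix.sum_apply]
  simp only [blockwise, of_apply, h2, Matrix.mul_sum, Matrix.sum_mul, Finset.mul_sum,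
    Matrix.sum_apply, Matrix.mul_smul, Matrix.smul_mul, Matrix.smul_apply, smul_eq_mul,
    kroneckerMap_apply]
  exact Finset.sum_congr rfl fun i _ => by ring

/-- The Choi matrix of an entanglement breaking map is separable. -/
theorem choi_sep {n : ℕ} {Φ : Matrix (Fin n) (Fin n) ℂ → Matrix e e ℂ}
    (h : IsEntanglementBreaking Φ) : IsSeparable (choiMatrix Φ) := by
  let w : Fin n × Fin n → ℂ := fun p => if p.1 = p.2 then 1 else 0
  have hM : (vecMulVec w (star w)).PosSemidef := posSemidef_vecMulVec_self_star w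
  have := h n _ hM
  convert this using 1
  ext p q
  simp only [choiMatrix, blockwise, of_apply]
  congr 1
  ext i j
  simp only [block, of_apply, vecMulVec_apply, w, Matrix.single, Pi.star_apply]
  by_cases h1 : p.1 = i <;> by_cases h2 : q.1 = j <;> simp [h1, h2]

/-- A separable matrix whose range contains no product vector vanishes. -/
theorem sep_eq_zero {ι : Type*} {L : Matrix (d × e) (d × e) ℂ} (hL : IsSeparable L)
    (F : ι → d × e → ℂ) (hF : ∀ i, L *ᵥ F i = 0)
    (hcore : ∀ (u : d → ℂ) (v : e → ℂ), (∀ i, ∑ p, F i p * (u p.1 * v p.2) = 0) → u = 0 ∨ v = 0) :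
    L = 0 := by
  obtain ⟨r, A, B, hA, hB, rfl⟩ := hL
  refine Finset.sum_eq_zero fun j _ => ?_
  have hz : ∀ i, (A j ⊗ₖ B j) *ᵥ F i = 0 := by
    intro i
    have h0 : ∑ l, star (F i) ⬝ᵥ ((A l ⊗ₖ B l) *ᵥ F i) = 0 := by
      rw [← dotProduct_sum, ← Matrix.sum_mulVec, hF i, dotProduct_zero]
    rw [Finset.sum_eq_zero_iff_of_nonneg
      (fun l _ => ((hA l).kronecker (hB l)).dotProduct_mulVec_nonneg _)] at h0
    exact (((hA j).kronecker (hB j)).dotProduct_mulVec_zero_iff _).1 (h0 j (Finset.mem_univ _))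
  ext ⟨a, b⟩ ⟨a', b'⟩
  have := hcore (A j a) (B j b) fun i => by
    have h1 := congrFun (hz i) (a, b)
    simp only [mulVec, dotProduct, kroneckerMap_apply, Pi.zero_apply] at h1
    rw [← h1]
    exact Finset.sum_congr rfl fun p _ => by ring
  rcases this with h | h
  · simp [kroneckerMap_apply, congrFun h a']
  · simp [kroneckerMap_apply, congrFun h b']

omit [Fintype e] [DecidableEq e] in
theorem exists_smul_one_sub {H : Matrix d d ℂ} (hH : H.IsHermitian) :
    ∃ ε : ℝ, 0 < ε ∧ (1 - (ε : ℂ) • H).PosSemidef := by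
  obtain ⟨C, hC⟩ : ∃ C : ℝ, 0 < C ∧ ∀ i, hH.eigenvalues i ≤ C :=
    ⟨1 + ∑ i, |hH.eigenvalues i|, by positivity, fun i => by
      have h1 := Finset.single_le_sum (f := fun i => |hH.eigenvalues i|)
        (fun i _ => abs_nonneg _) (Finset.mem_univ i)
      have h2 := le_abs_self (hH.eigenvalues i)
      linarith⟩
  refine ⟨C⁻¹, inv_pos.2 hC.1, ?_⟩
  set U : Matrix d d ℂ := (hH.eigenvectorUnitary : Matrix d d ℂ) with hU
  have hUU : U * Uᴴ = 1 := by
    have := hH.eigenvectorUnitary.2.2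
    simpa [hU, star_eq_conjTranspose] using this
  have hsp : H = U * diagonal (fun i => (hH.eigenvalues i : ℂ)) * Uᴴ := by
    have := hH.spectral_theorem
    simpa [hU, Unitary.conjStarAlgAut_apply, star_eq_conjTranspose, Function.comp_def] using this
  have : 1 - ((C⁻¹ : ℝ) : ℂ) • H =
      U * diagonal (fun i => ((1 - C⁻¹ * hH.eigenvalues i : ℝ) : ℂ)) * Uᴴ := by
    have e : diagonal (fun i => ((1 - C⁻¹ * hH.eigenvalues i : ℝ) : ℂ)) =
        1 - ((C⁻¹ : ℝ) : ℂ) • diagonal (fun i => (hH.eigenvalues i : ℂ)) := by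
      ext i j
      by_cases h : i = j <;> simp [h]
    rw [e, Matrix.mul_sub, Matrix.sub_mul, Matrix.mul_one, hUU, Matrix.mul_smul, Matrix.smul_mul,
      ← hsp]
  rw [this]
  refine PosSemidef.mul_mul_conjTranspose_same (PosSemidef.diagonal fun i => ?_) U
  simp only [Pi.zero_apply]
  rw [Complex.zero_le_real, sub_nonneg, inv_mul_le_one₀ hC.1]
  exact hC.2 i

end

end Crest.Agent.R345
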