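import Crest.Agent.R345.Core
import Crest.Agent.R345.Kraus

set_option autoImplicit false

/-! The two PPT maps and the Choi matrix of their composition. -/

namespace Crest.Agent.R345

open Crest.Quantum Matrix
open scoped ComplexOrder Kronecker

/-- Weights. -/
def cc (i : Fin 15) : ℕ := Dd.getD i 0

/-- Kraus operators of the first map. -/
def K1m (i : Fin 15) : Matrix (Fin 10) (Fin 10) ℂ := of fun e s => (g3 Kd i e s : ℂ)

/-- Kraus operators of the second map. -/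
def K2m (i : Fin 15) : Matrix (Fin 10) (Fin 10) ℂ := of fun t e => (g3 K2d i e t : ℂ)

/-- The first map. -/
noncomputable def Φ₁ : Matrix (Fin 10) (Fin 10) ℂ → Matrix (Fin 10) (Fin 10) ℂ := kr cc K1m

/-- The second map. -/
noncomputable def Φ₂ : Matrix (Fin 10) (Fin 10) ℂ → Matrix (Fin 10) (Fin 10) ℂ := kr cc K2m

theorem Φ₁_symm (X : Matrix (Fin 10) (Fin 10) ℂ) : (Φ₁ X)ᵀ = Φ₁ X := by
  ext a b
  simp only [transpose_apply, Φ₁, kr_apply, K1m, of_apply, star_intCast, cc]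
  refine Finset.sum_congr rfl fun s _ => Finset.sum_congr rfl fun t _ => ?_
  congr 1
  exact_mod_cast sym1' b a s t

theorem Φ₂_symm (X : Matrix (Fin 10) (Fin 10) ℂ) : (Φ₂ X)ᵀ = Φ₂ X := by
  ext a b
  simp only [transpose_apply, Φ₂, kr_apply, K2m, of_apply, star_intCast, cc]
  refine Finset.sum_congr rfl fun s _ => Finset.sum_congr rfl fun t _ => ?_
  congr 1
  exact_mod_cast sym2' s t b a

theorem ppt_of_symm {d e : Type*} [Fintype d] [Fintype e] [DecidableEq d] [DecidableEq e]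
    {Φ : Matrix d d ℂ → Matrix e e ℂ} (h : IsCompletelyPositive Φ) (hs : ∀ X, (Φ X)ᵀ = Φ X) :
    IsPPT Φ := by
  refine ⟨h, ?_⟩
  simp only [hs]
  exact h

/-- Products of Kraus operators. -/
def QQ (i i' : Fin 15) (p : Fin 10 × Fin 10) : ℤ := ∑ e : Fin 10, g3 K2d i' e p.2 * g3 Kd i e p.1

theorem choi_eq (p q : Fin 10 × Fin 10) :
    choiMatrix (Φ₂ ∘ Φ₁) p q =
      ∑ i' : Fin 15, ∑ i : Fin 15, ((cc i' : ℂ) * cc i) * ((QQ i i' p : ℂ) * QQ i i' q) := by
  have h : ∀ (A : Matrix (Fin 10) (Fin 10) ℂ) (i j a b : Fin 10),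
      (A * single i j (1 : ℂ) * Aᴴ) a b = A a i * star (A b j) := by
    intro A i j a b
    simp [Matrix.mul_apply, Matrix.single, ite_and, conjTranspose_apply]
  simp only [choiMatrix, of_apply, Function.comp, Φ₁, Φ₂, kr, Matrix.mul_sum, Matrix.sum_mul,
    Matrix.mul_smul, Matrix.smul_mul, Matrix.sum_apply, Matrix.smul_apply, smul_eq_mul,
    Finset.mul_sum]
  refine Finset.sum_congr rfl fun i' _ => Finset.sum_congr rfl fun i _ => ?_
  have e : K2m i' * (K1m i * single p.1 q.1 1 * (K1m i)ᴴ) * (K2m i')ᴴ =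
      (K2m i' * K1m i) * single p.1 q.1 1 * (K2m i' * K1m i)ᴴ := by
    simp only [conjTranspose_mul, Matrix.mul_assoc]
  have e2 : ∀ r : Fin 10 × Fin 10, (K2m i' * K1m i) r.2 r.1 = (QQ i i' r : ℂ) := by
    intro r
    simp [Matrix.mul_apply, K1m, K2m, QQ]
  rw [e, h, e2, e2, star_intCast]
  ring

/-- The kernel vectors. -/
def FF (j : Fin 20) (p : Fin 10 × Fin 10) : ℂ := (g3 Fd j p.2 p.1 : ℂ)

theorem FF_QQ (j : Fin 20) (i i' : Fin 15) : ∑ p, FF j p * (QQ i i' p : ℂ) = 0 := by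
  have h := kerF j i i'
  have h2 : ∑ p : Fin 10 × Fin 10, g3 Fd j p.2 p.1 * QQ i i' p = 0 := by
    rw [← h, Fintype.sum_prod_type_right]
    conv_rhs => rw [Finset.sum_comm]
    refine Finset.sum_congr rfl fun t _ => ?_
    simp only [QQ, Finset.mul_sum, Finset.sum_mul]
    rw [Finset.sum_comm]
    exact Finset.sum_congr rfl fun e _ => Finset.sum_congr rfl fun s _ => by ring
  simp only [FF]
  exact_mod_cast h2

theorem core' (u v : Fin 10 → ℂ) (h : ∀ j, ∑ p, FF j p * (u p.1 * v p.2) = 0) : u = 0 ∨ v = 0 :=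
  core u v fun j => by simpa [FF, Fintype.sum_prod_type] using h j

theorem choi_mulVec (j : Fin 20) : choiMatrix (Φ₂ ∘ Φ₁) *ᵥ FF j = 0 := by
  funext p
  simp only [mulVec, dotProduct, choi_eq, Finset.sum_mul, Pi.zero_apply]
  rw [Finset.sum_comm]
  refine Finset.sum_eq_zero fun i' _ => ?_
  rw [Finset.sum_comm]
  refine Finset.sum_eq_zero fun i _ => ?_
  have : ∑ q, (cc i' : ℂ) * cc i * ((QQ i i' p : ℂ) * QQ i i' q) * FF j q =
      (cc i' : ℂ) * cc i * (QQ i i' p : ℂ) * ∑ q, FF j q * (QQ i i' q : ℂ) := by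
    rw [Finset.mul_sum]
    exact Finset.sum_congr rfl fun q _ => by ring
  rw [this, FF_QQ, mul_zero]

theorem choi_symm (p q : Fin 10 × Fin 10) :
    choiMatrix (Φ₂ ∘ Φ₁) p q = choiMatrix (Φ₂ ∘ Φ₁) q p := by
  simp only [choi_eq, mul_comm]

theorem choi_range (u v : Fin 10 → ℂ)
    (h : ∃ w, (choiMatrix (Φ₂ ∘ Φ₁)).mulVec w = fun p => u p.1 * v p.2) : u = 0 ∨ v = 0 := by
  obtain ⟨w, hw⟩ := h
  refine core' u v fun j => ?_
  have h1 : ∀ p : Fin 10 × Fin 10, u p.1 * v p.2 = ∑ q, choiMatrix (Φ₂ ∘ Φ₁) p q * w q :=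
    fun p => (congrFun hw p).symm
  simp only [h1, Finset.mul_sum]
  rw [Finset.sum_comm]
  refine Finset.sum_eq_zero fun q _ => ?_
  have h2 : ∑ p, choiMatrix (Φ₂ ∘ Φ₁) q p * FF j p = 0 := congrFun (choi_mulVec j) q
  have : ∑ p, FF j p * (choiMatrix (Φ₂ ∘ Φ₁) p q * w q) =
      (∑ p, choiMatrix (Φ₂ ∘ Φ₁) q p * FF j p) * w q := by
    rw [Finset.sum_mul]
    exact Finset.sum_congr rfl fun p _ => by rw [choi_symm p q]; ring
  rw [this, h2, zero_mul]

theorem choi_val : ∑ i' : Fin 15, ∑ i : Fin 15,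
    ((cc i' : ℤ) * cc i) * (QQ i i' (0, 1) * QQ i i' (0, 1)) = 311040000 := by decide +kernel

theorem choi_ne_zero : choiMatrix (Φ₂ ∘ Φ₁) ≠ 0 := by
  intro h
  have h1 := congrFun (congrFun h (0, 1)) (0, 1)
  rw [choi_eq, Matrix.zero_apply] at h1
  have h2 : ((∑ i' : Fin 15, ∑ i : Fin 15,
    ((cc i' : ℤ) * cc i) * (QQ i i' (0, 1) * QQ i i' (0, 1)) : ℤ) : ℂ) = 0 := by
    exact_mod_cast h1
  rw [choi_val] at h2
  norm_num at h2

theorem not_eb : ¬ IsEntanglementBreaking (Φ₂ ∘ Φ₁) := fun h =>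
  choi_ne_zero (sep_eq_zero (choi_sep h) FF choi_mulVec core')

end Crest.Agent.R345
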